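import Mathlib.Logic.Basic

/-
# P032: the local (slot) model of a locked two-pair point, and what it refutes

Working notes only, no theorem here.  They complete `P032/H979/LockNotes.lean` (what is left after
`P032.CommonColours`).  Machine verdicts, not proofs; sources: search programs of helper903,
helper609, helper804 and helper386, SAT with at most 12 rings.

## Notation

z is a two-pair point: T z = {a,b,c,d} with exact pairs ab | cd.  Positions u in R / 6 on the unit
circle S(z), pt z u.  At a generic u the palette of pt z u is one letter: e, f, ab or cd.  Adjacent
positions (u, u + 1) have different letters, opposite positions (u, u + 3) are never ab against cd.
For a colour i of T z let N_i be the set of directions u such that all points of U_i close to z lie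
strictly on the side of pt z u (i is near at u; i is far at u if i is near at u + 3).  N_i is an open
arc shorter than a half turn (possibly empty); i near and q far exclude each other for i in ab, q in
cd in the same direction; a and b are never near together; if the letter at u is ab then one of a, b
is near and the other far (same for cd).

## Kinds of events at V = pt z u (letters before and after, palette of V, letters at u - 1 and u + 1)

* 2: letters e, f (equal or different); T V = ef; flanks ab or cd.  F: the same palette, but one
  flank carries at the same instant an event S or r with the two letters exchanged.
* R (real end): letters ab and e (or ab twice, or e twice: invisible); T V = abe; one of a, b near,
  the other far; flanks f or cd (the flank rule is proved only without locks).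
* Y (harmless): letters ab, e; T V = abef with pairs ae | bf or af | be; both flanks cd.
* S (harmless): letters e, f; T V = abef with pairs ef | ab.
* X (lock): letters ab, e; T V = abec with pairs ac | be or bc | ae; both flanks f; for ac | be: either
  a near, b far, c far and the edge (a near, c far) is tight, or b near, a far, c near and the edge
  (c near, a far) is tight.
* r (lock): letters e, f; T V = acef with pairs ac | ef; a near, c far tight, or the reverse.
* p (lock): letters ab, cd; T V = abcd with pairs ac | bd or ad | bc; both flanks e or f; i near, j far,
  q near, r far with tight edges (i, r) and (q, j).
Tight edge (i near, q far) at u: N_i and - N_q both end (or both begin) at u.  Each of the four edges
ac, ad, bc, bd is used by at most one lock; a lock of kind p uses two edges.  So the number k of edges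
used at z is at most 4, and p = 2 edges.  Up to symmetry there are 2, 16, 36, 58 classes of
lock types for k = 1, 2, 3, 4.
Further rules of the model: HORN (an outer near contact forbids a pair letter at the opposite
position at the same instant), the table of allowed antipodal pairs of events, at most 2 ends of a type if
the complementary type occurs (rule2), disjoint letters and legal pairs of palettes at distance one,
the identity rule (x = c + c' - y is seen from c and c').

## Verdicts that do not depend on the number of events (between named instants everything is free)

z with ALL its locks named (partner rings with both pairs, all their own events free), all real ends
of z free in number, kinds S and Y free, no rule2, no counting rule:
* k = 3: contradictory for the triples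
  ac|be ad|be bc|ae,   ac|be ad|ce bc|de,   ac|be ad|bf bc|af,   ac|be ad|cf bc|df,
  ac|be ad|ef bd|ae.
  These five triples stay contradictory if further locks of z (kinds X, p, r) are free too: the three
  locks never occur together at any two-pair point.  The other 31 triples are satisfiable.
* k = 4: contradictory for the 15 classes which contain one of these triples up to symmetry, and for
  the class ac|bd (kind p) ad|be bc|ae.  The other 42 classes are satisfiable without counting rules
  (helper903 refutes more of them with the rules rule2, N22 and exact numbers of ends).
* k = 2 and k = 1: every class is satisfiable, also with the joint classes of two rings (level 2) for
  the eight survivors tried, and also if z has the two real ends V, Q at distance one of a third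
  named ring.  A leaf (k = 1) with end vector 0122 is contradictory, even without the rules N22 / TWO.
* Rule TWO (number of ends 1, 1 on complementary types) is satisfiable at once when locks are free.

## What this suggests

Local information around one point (its circle, the circles of its partners, tangential cones) is
not enough for k = 1, 2; one needs either full words on the circles of z, of the partner and of the
common neighbours for a whole period (as in the pipeline of `P032.CommonColours`), or a global
argument on the graph of locks: after the k = 3, 4 verdicts this graph has small degree, a lock of kind X
at z on the edge ac with partner y = ac | be is for y a lock of kind X, r or p as well, so long chains
of two-pair points at distance one are what remains.  Kinds of an X lock seen from the other end: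
z = ab | cd, y = ac | be: common colours a, b, c; from y the point z has pairs ab | cd, which is of kind X
with the missing colour d.
-/
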